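import Vale.Agent.P167.SG.Cls3
import Vale.Agent.P167.H450.OutZ
import Vale.Agent.P167.H756.S23
import Vale.Agent.P167.H411.Inputs6

/-!
# P167, general `q`, Stage II, [SHP2-ASM]: definitions

No flat part: the common part is empty (`xc = 1`), the target `b` (position `+ 1`) is treated like the
tip (position `- 1`).
* `Cst2`: the constants of the disc; `Hst2`: the properties of one history;
* `Yb2`: the barrier; `Gate`: a gate from a boundary point to infinity;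
* `Sf2`: safe points, `Ωx2`, `BadP2`: bad positions; `Mk2`: the data for the two marks.
-/

set_option autoImplicit false

open Set Topology Metric Filter Bornology
open scoped Real ComplexConjugate

namespace Vale.Agent.P167.H756.G2

open Vale.Agent.P153.R2.R1 (Conf dinv mb)
open Vale.Agent.P153.R2.L1 (HH)
open Vale.Agent.P164 (loewnerDomain gf Zf)
open Vale.Agent.P167.H411 (Set6)
open Vale.Agent.P167.H450.Out (OD Pm Hc)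
open Vale.Agent.P167.SG (Sit Ug Rr Jd TipJ Nr2 pos)

/-- The constants of the disc (`xc = 1`). -/
structure Cst2 (τ κ ε η e ν : ℝ) : Prop where
  hτ : 0 < τ
  hτ1 : τ ≤ 1
  hε : 0 < ε
  hε1 : ε ≤ 1 / 4
  hη : 0 < η
  hη1 : η < 1
  he : 0 < e
  he1 : 2 * e < 1
  hν : 0 < ν
  f1 : ν < ε - ε / 2
  f2 : ν < τ / 2 * (1 - ε) - η
  g1 : 4 * e + ν ≤ τ / 2
  g2 : ε + 4 * e + 2 * ν ≤ κ
  s1 : 2 * ν < ε / 2
  s2 : 2 * ν < τ / 2 * (1 - 2 * ν)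
  s3 : 2 * ν < η * (1 - 2 * ν)

/-- The properties of one history. `σ = 1`: `IN` is the right side, `σ = - 1`: the left side. -/
structure Hst2 {ι : Type} (σ ν r₀ ρ r' ℓ s₂ : ℝ) (ψ : ℂ → ℂ) (W : ℝ → ℝ) (t : ℝ) (tp : ℂ)
    (IN : Set ℂ) (K : ι → Set ℂ) : Prop where
  hσ : |σ| = 1
  pc : IsPreconnected (ψ '' loewnerDomain W t)ᶜ
  ksub : ∀ i, K i ⊆ ψ '' loewnerDomain W t
  kconn : ∀ i, IsPreconnected (K i)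
  ksmall : ∀ i, ∀ x ∈ K i, ∀ y ∈ K i, dist x y ≤ s₂
  kbd : ∀ i, ∃ x ∈ closure (K i), x ∉ ψ '' loewnerDomain W t
  side : ∀ w ∈ loewnerDomain W t, ψ w ∈ IN → ∃ x : ℝ, 0 ≤ σ * x ∧
    dist (pos W t w) (mb 1 Complex.I x) ≤ ν
  tip : ∀ C ⊆ ψ '' loewnerDomain W t, tp ∈ closure C →
    ∀ ε > 0, ∃ w ∈ loewnerDomain W t, ψ w ∈ C ∧ dist (pos W t w) (-1) < ε
  nc : ∀ u ∈ ψ '' loewnerDomain W t, ∀ y ∈ ψ '' loewnerDomain W t, dist u y ≤ 12 * ℓ →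
    ¬ Jd (ψ '' loewnerDomain W t) r₀ u y → (¬ ∃ z ∈ IN, Jd (ψ '' loewnerDomain W t) ρ u z) →
    (¬ ∃ z ∈ IN, Jd (ψ '' loewnerDomain W t) ρ y z) → ¬ TipJ (ψ '' loewnerDomain W t) r' tp u →
    ¬ TipJ (ψ '' loewnerDomain W t) r' tp y → ∃ i, u ∈ K i

/-- The barrier: the boundary of `Rr σ (1 - ρ) η 1` in the disc, `α = arcsin η`. -/
noncomputable def Yb2 (σ ρ η : ℝ) : Set ℂ :=
  ((fun θ : ℝ => (ρ : ℂ) * Complex.exp ((σ * θ : ℝ) * Complex.I)) ''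
      Icc (-π - Real.arcsin η) (Real.arcsin η)) ∪
    (((fun r : ℝ => (r : ℂ) * Complex.exp ((σ * Real.arcsin η : ℝ) * Complex.I)) '' Ico ρ 1) ∪
     ((fun r : ℝ => (r : ℂ) * Complex.exp ((-(σ * (π + Real.arcsin η)) : ℝ) * Complex.I)) '' Ico ρ 1))

/-- A gate of the domain `ψ '' HH` at the boundary point `ψ xg`: a connected set which joins it to
infinity; the points of the domain near it are near `xg` (in the half-plane, precision `h`). -/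
structure Gate (ψ : ℂ → ℂ) (xg h c : ℝ) (Gt : Set ℂ) : Prop where
  hc : 0 < c
  conn : IsPreconnected Gt
  mem : ψ xg ∈ Gt
  near : ∀ z ∈ HH, ∀ x ∈ Gt, dist x (ψ z) ≤ c → ‖z - xg‖ ≤ h
  out : ∃ R₁ : ℝ, (∀ z ∈ HH, ‖ψ z‖ + c ≤ R₁) ∧ sphere (0 : ℂ) R₁ ⊆ Gt

/-- **[GATE2]** (every approximation). -/
def B_gate : Prop :=
  ∀ (Φ : (ℝ × ℝ) ≃ₜ (ℝ × ℝ)) (ψ : ℂ → ℂ) (δ : ℕ → ℝ) (N k : ℕ → ℕ)
    (p : ∀ n, ZMod (N n) → ℤ × ℤ) (S : ℕ → Finset (ℤ × ℤ)) (ψn : ℕ → ℂ → ℂ),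
    Set6 Φ ψ δ N k p S ψn → ∀ xg h : ℝ, 0 < h → ∃ c : ℝ, 0 < c ∧ ∀ᶠ n in atTop,
      ∃ Gt : Set ℂ, Gate (ψn n) xg h c Gt

/-- Safe points of the domain. -/
def Sf2 (F : ℂ → ℂ) (σ ν s : ℝ) : Set ℂ :=
  {x | x ∈ F '' ball 0 1 ∧ s - 2 * ν ≤ ‖dinv F x + 1‖ ∧ s - 2 * ν ≤ ‖dinv F x - 1‖ ∧
    -(2 * ν) ≤ σ * (dinv F x).im}

/-- Near `- 1`, near `+ 1` or on the side `σ Im < - δ'`. -/
def Ωx2 (σ s' δ' : ℝ) : Set ℂ := {w | ‖w + 1‖ < s' ∨ ‖w - 1‖ < s' ∨ σ * w.im < -δ'}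

/-- The position is bad (with a margin). -/
def BadP2 (σ s' δ' e m : ℝ) (w : ℂ) : Prop :=
  ‖w + 1‖ < s' - 4 * e - 2 * m ∨ ‖w - 1‖ < s' - 4 * e - 2 * m ∨ σ * w.im < -δ' - 4 * e - 2 * m

/-- The half crosscut around `+ 1` on the side `σ Im ≥ 0`. -/
def Hc1 (σ s : ℝ) : Set ℂ := (fun w => -w) '' Hc (-σ) s

/-- The data for the two marks: radii `sa` (tip) and `sb` (target) of the crosscuts, both `≥ s`. `s₂`: a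
reference boundary point, joined to `F q` by `Xb` on the side `IN`. -/
structure Mk2 {ι : Type} (F : ℂ → ℂ) (σ ε ε' e ν r ℓ : ℝ) (κ : ι → Set ℂ)
    (s sa sb s' δ' m h₁ : ℝ) (Xb : Set ℂ) (s₂ q : ℂ) : Prop where
  sit : Sit F σ ε ε' 1 e ν r ℓ κ
  hem : e ≤ m
  hεm : ε ≤ m
  hms : 4 * m < s'
  hδs : 2 * δ' < s'
  hδν : 3 * ν < δ'
  hss : s' + 3 * ν < s
  hsa : s ≤ sa
  hsb : s ≤ sb
  hsa1 : sa < 1
  hsb1 : sb < 1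
  topa : F ((-1 + sa : ℝ) : ℂ) ∈ Pm ℓ (Ug F σ ε ε' 1 κ)
  topb : F ((1 - sb : ℝ) : ℂ) ∈ Pm ℓ (Ug F σ ε ε' 1 κ)
  deepa : ∀ y ∈ frontier (Pm ℓ (Ug F σ ε ε' 1 κ)), r + 16 * ℓ ≤ dist (F ((-1 + sa : ℝ) : ℂ)) y
  deepb : ∀ y ∈ frontier (Pm ℓ (Ug F σ ε ε' 1 κ)), r + 16 * ℓ ≤ dist (F ((1 - sb : ℝ) : ℂ)) y
  cuta : ∀ w ∈ Hc σ sa, ∀ w' ∈ Hc σ sa, dist (F w) (F w') ≤ h₁
  cutb : ∀ w ∈ Hc1 σ sb, ∀ w' ∈ Hc1 σ sb, dist (F w) (F w') ≤ h₁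
  nc2 : ∀ u ∈ Ug F σ ε ε' 1 κ, ∀ z ∈ Sf2 F σ ν s, dist u z ≤ 12 * ℓ → Jd (F '' ball 0 1) r u z
  qm : ‖q‖ < 1 - m
  qi : σ * q.im < -δ'
  cx : IsCompact Xb
  px : IsPreconnected Xb
  Xb_sub : Xb ⊆ insert s₂ (Pm ℓ (Ug F σ ε ε' 1 κ))
  XbD : Xb ⊆ F '' ball 0 1
  s_mem : s₂ ∈ Xb
  s_fr : s₂ ∈ frontier (Pm ℓ (Ug F σ ε ε' 1 κ))
  q_mem : F q ∈ Xb
  Xpos : ∀ z ∈ Xb, σ * (dinv F z).im < -(2 * ν)
  XbU : ∀ z ∈ Xb, ∀ u ∈ Ug F σ ε ε' 1 κ ∩ Sf2 F σ ν s, 3 * ℓ < dist z u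

/-- The properties of a mark: `x₀` = top of the crosscut, `e'` = the mark, `K` = the connection. -/
structure IsMk2 (P U : Set ℂ) (F : ℂ → ℂ) (σ ν s ℓ h₂ : ℝ) (x₀ e' : ℂ) (K : Set ℂ) : Prop where
  fr : e' ∈ frontier P
  cpt : IsCompact K
  conn : IsPreconnected K
  sub : K ⊆ insert e' P
  x₀_mem : x₀ ∈ K
  e_mem : e' ∈ K
  conn' : IsPreconnected (K \ {e'})
  cl : e' ∈ closure (K \ {e'})
  small : K ⊆ closedBall x₀ h₂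
  safe : ∀ x ∈ K, x ∈ Sf2 F σ ν s ∨ ∃ u ∈ U ∩ Sf2 F σ ν s, dist x u ≤ 3 * ℓ

end Vale.Agent.P167.H756.G2
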