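import Vale.Agent.P167.H756.G2.Sit2

/-!
# P167, general `q`, Stage II: the flow near a far real point of any sign
-/

set_option autoImplicit false

open Set Topology Metric Filter Bornology
open scoped Real ComplexConjugate

namespace Vale.Agent.P167.H756.G2

open Vale.Agent.P153.R2.R1 (Conf dinv mb imb norm_mb_eq mb_imb imb_mb)
open Vale.Agent.P153.R2.L1 (HH mem_HH inv)
open Vale.Agent.P164 (loewnerDomain gf Zf)
open Vale.Agent.P167.H756
open Vale.Agent.P167.SG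
open Vale.Agent.P167.H411 (exists_rsol)
open Vale.Agent.P167.H947 (surv flow flow_gf flow_rsol surv_inter differentiableOn_flow)

variable {T R : ℝ} {W : ℝ → ℝ} {t : ℝ}

/-- The image of a real point far away. -/
theorem real_pt2 (H : Drv T R W t) {X : ℝ} (hX0 : X ≠ 0) (hX : 8 * R ≤ |X|)
    (hX2 : 64 * T ≤ X ^ 2) : ∃ X₁ : ℝ, flow W t X - W t = X₁ ∧ |X| / 2 ≤ |X₁| ∧ |X₁| ≤ 2 * |X| ∧
      0 < X₁ / X := by
  have hR := H.R_nonneg
  have hT : 0 ≤ T := H.nn.trans H.le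
  have hWc : ContinuousOn W (Icc 0 t) := H.cont.continuousOn
  have h2 : 16 * t ≤ X ^ 2 := by linarith [H.le]
  obtain ⟨y, hy⟩ := exists_rsol H.nn hWc H.bdd hX0 (by linarith) h2
  obtain ⟨-, h5, h3, h4⟩ := Vale.Agent.P167.H411.RSol.bounds H.nn hWc H.bdd hX0
    (by linarith) h2 hy t ⟨H.nn, le_rfl⟩
  refine ⟨y t - W t, ?_, h3, ?_, h4⟩
  · rw [flow_rsol H.nn hWc hy, ← Complex.ofReal_sub]
  · have h6 := H.bdd t ⟨H.nn, le_rfl⟩
    have h7 := abs_sub (y t) (W t)
    have h8 : |y t| ≤ |y t - X| + |X| := by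
      have := abs_add_le (y t - X) X
      rwa [sub_add_cancel] at this
    linarith

theorem zf_flow (H : Drv T R W t) {z : ℂ} (hz : z ∈ loewnerDomain W t) :
    Zf W z t = flow W t z - W t := by
  rw [flow_gf H.nn H.cont.continuousOn hz, Vale.Agent.P164.Zf_eq]

theorem abs_norm (X : ℝ) : ‖(X : ℂ)‖ = |X| := by rw [Complex.norm_real, Real.norm_eq_abs]

/-- The flow minus the identity is a contraction near a far real point. -/
theorem flow_contr (H : Drv T R W t) {X : ℝ} (hX0 : X ≠ 0) (hX : 32 * R ≤ |X|)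
    (hX2 : 1024 * T ≤ X ^ 2) {z : ℂ} (hz : ‖z - X‖ < |X| / 8) :
    z ∈ surv W t ∧ ‖(flow W t z - flow W t X) - (z - X)‖ ≤ 1 / 8 * ‖z - X‖ := by
  have hXp : 0 < |X| := abs_pos.2 hX0
  have hT : 0 ≤ T := H.nn.trans H.le
  have hfar : ∀ w ∈ ball (X : ℂ) (|X| / 8 + |X| / 8), w ∈ surv W t ∧
      ‖flow W t w - w‖ ≤ |X| / 128 := by
    intro w hw
    have e : |X| / 8 + |X| / 8 = |X| / 4 := by ring
    rw [e, mem_ball, dist_eq_norm] at hw
    have k1 : 3 / 4 * |X| ≤ ‖w‖ := by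
      have := norm_sub_norm_le (X : ℂ) w
      rw [← norm_neg (w - X), neg_sub] at hw
      rw [abs_norm] at this
      linarith
    have k3 : 0 < ‖w‖ := by linarith
    have k4 : (3 / 4 * |X|) ^ 2 ≤ ‖w‖ ^ 2 := by gcongr
    rw [mul_pow, sq_abs] at k4
    obtain ⟨a1, a2, -, -⟩ := H.far (z := w) k3 (by linarith [H.R_nonneg]) (by nlinarith)
    refine ⟨a1, a2.trans ?_⟩
    rw [div_le_iff₀ k3]
    rw [← sq_abs] at hX2
    nlinarith
  obtain ⟨-, hl⟩ := lip_of_bdd (f := fun w => flow W t w - w) (x := (X : ℂ)) (ρ := |X| / 8)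
    (s := |X| / 8) (B := |X| / 128) (by positivity)
    (((differentiableOn_flow H.nn H.cont.continuousOn).mono fun w hw => (hfar w hw).1).sub
      differentiableOn_id) (fun w hw => (hfar w hw).2)
  have hzb : z ∈ ball (X : ℂ) (|X| / 8) := by rw [mem_ball, dist_eq_norm]; exact hz
  have h3 := hl X (mem_ball_self (by positivity)) z hzb
  have e : |X| / 128 / (|X| / 8 / 2) = 1 / 8 := by field_simp; norm_num
  rw [e] at h3
  refine ⟨(hfar z (ball_subset_ball (by linarith) hzb)).1, ?_⟩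
  have e2 : (flow W t z - flow W t X) - (z - X) = (flow W t z - z) - (flow W t X - X) := by ring
  rw [e2]
  exact h3

/-- Near points have near images. -/
theorem zf_near (H : Drv T R W t) {X : ℝ} (hX0 : X ≠ 0) (hX : 32 * R ≤ |X|)
    (hX2 : 1024 * T ≤ X ^ 2) {z : ℂ} (hzH : z ∈ HH) (hz : ‖z - X‖ < |X| / 8) :
    z ∈ loewnerDomain W t ∧ ‖Zf W z t - (flow W t X - W t)‖ ≤ 2 * ‖z - X‖ := by
  obtain ⟨h1, h2⟩ := flow_contr H hX0 hX hX2 hz
  have hd : z ∈ loewnerDomain W t := (surv_inter H.cont.continuousOn hzH).1 h1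
  refine ⟨hd, ?_⟩
  rw [zf_flow H hd]
  have e : (flow W t z - W t) - (flow W t X - W t) =
      ((flow W t z - flow W t X) - (z - X)) + (z - X) := by ring
  rw [e]
  refine (norm_add_le _ _).trans ?_
  have := norm_nonneg (z - X)
  linarith

/-- Points with near images are near. -/
theorem inv_near (H : Drv T R W t) {X : ℝ} (hX0 : X ≠ 0) (hX : 32 * R ≤ |X|)
    (hX2 : 1024 * T ≤ X ^ 2) {z : ℂ} (hz : z ∈ loewnerDomain W t)
    (hb : ‖Zf W z t - (flow W t X - W t)‖ ≤ |X| / 32) :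
    ‖z - X‖ ≤ 2 * ‖Zf W z t - (flow W t X - W t)‖ := by
  have hXp : 0 < |X| := abs_pos.2 hX0
  have hT : 0 ≤ T := H.nn.trans H.le
  have hR := H.R_nonneg
  have hXn : ‖(X : ℂ)‖ = |X| := abs_norm X
  have hsq : |X| ^ 2 = X ^ 2 := sq_abs X
  obtain ⟨-, b2, -, b4⟩ := H.far (z := (X : ℂ)) (by rw [hXn]; exact hXp) (by rw [hXn]; linarith)
    (by rw [hXn, hsq]; linarith)
  rw [hXn] at b2 b4
  have h1 : 2 * (|X| / 5) < ‖Zf W z t‖ := by
    have := norm_sub_norm_le (flow W t X - W t) (Zf W z t)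
    rw [← norm_neg, neg_sub] at hb
    linarith
  have h2 := far_inv H (X1 := |X| / 5) (X3 := |X| / 5) (by positivity) (by linarith)
    (by rw [div_pow, hsq]; linarith) le_rfl hz h1
  have hz0 : 0 < ‖z‖ := by linarith
  have h2' : (|X| / 5) ^ 2 ≤ ‖z‖ ^ 2 := by gcongr
  rw [div_pow, hsq] at h2'
  obtain ⟨-, c2, -, -⟩ := H.far (z := z) hz0 (by linarith) (by linarith)
  have d1 : 4 * T / ‖z‖ ≤ |X| / 50 := by
    rw [div_le_iff₀ hz0]
    nlinarith
  have d2 : 4 * T / |X| ≤ |X| / 256 := by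
    rw [div_le_iff₀ hXp]
    nlinarith
  rw [zf_flow H hz] at hb ⊢
  have e : z - X = ((flow W t z - W t) - (flow W t X - W t)) - (flow W t z - z) +
      (flow W t X - X) := by ring
  have h3 : ‖z - X‖ < |X| / 8 := by
    rw [e]
    refine lt_of_le_of_lt ((norm_add_le _ _).trans (add_le_add_left (norm_sub_le _ _) _)) ?_
    linarith
  obtain ⟨-, h4⟩ := flow_contr H hX0 hX hX2 h3
  have e2 : z - X = ((flow W t z - W t) - (flow W t X - W t)) -
      ((flow W t z - flow W t X) - (z - X)) := by ring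
  have h5 : ‖z - X‖ ≤ ‖(flow W t z - W t) - (flow W t X - W t)‖ + 1 / 8 * ‖z - X‖ := by
    calc ‖z - X‖ = ‖((flow W t z - W t) - (flow W t X - W t)) -
      ((flow W t z - flow W t X) - (z - X))‖ := by rw [← e2]
      _ ≤ _ := (norm_sub_le _ _).trans (by gcongr)
  have := norm_nonneg (z - X)
  linarith

/-- The position of the gate point. -/
noncomputable def pg (W : ℝ → ℝ) (t X : ℝ) : ℂ := mb 1 Complex.I (flow W t X - W t)

theorem pg_norm (H : Drv T R W t) {X : ℝ} (hX0 : X ≠ 0) (hX : 8 * R ≤ |X|)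
    (hX2 : 64 * T ≤ X ^ 2) : ‖pg W t X‖ = 1 := by
  obtain ⟨X₁, h1, -⟩ := real_pt2 H hX0 hX hX2
  rw [pg, h1]
  exact norm_mb_eq norm_one (by simp) (by simp)

theorem im_mb_real (x : ℝ) : (mb 1 Complex.I (x : ℂ)).im = -(2 * x) / (x ^ 2 + 1) := by
  rw [mb, Complex.conj_I, sub_neg_eq_add, one_mul, Complex.div_im]
  simp only [Complex.sub_re, Complex.sub_im, Complex.add_re, Complex.add_im, Complex.ofReal_re,
    Complex.ofReal_im, Complex.I_re, Complex.I_im, Complex.normSq_apply]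
  have h : x ^ 2 + 1 ≠ 0 := by positivity
  field_simp
  ring

/-- The gate point is on the side `IN`: a bound of its height. -/
theorem pg_im (H : Drv T R W t) {σ X : ℝ} (hσ : σ = 1 ∨ σ = -1) (hX0 : 1 ≤ X) (hX : 8 * R ≤ X)
    (hX2 : 64 * T ≤ X ^ 2) : σ * (pg W t (σ * X)).im ≤ -(1 / (4 * X ^ 2 + 1)) := by
  have ha : |σ * X| = X := by
    rcases hσ with rfl | rfl
    · rw [one_mul, abs_of_pos (by linarith)]
    · rw [neg_one_mul, abs_neg, abs_of_pos (by linarith)]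
  have hs : (σ * X) ^ 2 = X ^ 2 := by rcases hσ with rfl | rfl <;> ring
  have h0 : σ * X ≠ 0 := by
    rw [← abs_pos, ha]; linarith
  obtain ⟨X₁, h1, h2, h3, h4⟩ := real_pt2 H (X := σ * X) h0 (by rw [ha]; exact hX)
    (by rw [hs]; exact hX2)
  rw [pg, h1, im_mb_real]
  rw [ha] at h2 h3
  have h5 : σ * X₁ = |X₁| := by
    rcases hσ with rfl | rfl
    · rw [one_mul] at h4 ⊢
      have : 0 < X₁ := by
        by_contra hcon
        push Not at hcon
        have := div_nonpos_of_nonpos_of_nonneg hcon (by linarith : (0 : ℝ) ≤ X)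
        linarith
      rw [abs_of_pos this]
    · rw [neg_one_mul, div_neg, Left.neg_pos_iff] at h4
      have : X₁ < 0 := by
        by_contra hcon
        push Not at hcon
        have := div_nonneg hcon (by linarith : (0 : ℝ) ≤ X)
        linarith
      rw [abs_of_neg this, neg_one_mul]
  have e : σ * (-(2 * X₁) / (X₁ ^ 2 + 1)) = -(2 * |X₁| / (|X₁| ^ 2 + 1)) := by
    rw [← h5]
    rcases hσ with rfl | rfl
    · ring_nf
    · ring_nf
  rw [e, neg_le_neg_iff]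
  have h6 : |X₁| ^ 2 ≤ 4 * X ^ 2 := by
    have := pow_le_pow_left₀ (abs_nonneg X₁) h3 2
    linarith [this, (by ring : (2 * X) ^ 2 = 4 * X ^ 2)]
  have h7 : (1 : ℝ) ≤ 2 * |X₁| := by linarith
  exact div_le_div₀ (by linarith) h7 (by positivity) (by linarith)

/-- The points of the radial segment at the gate. -/
theorem radial (H : Drv T R W t) {X : ℝ} (hX0 : X ≠ 0) (hX : 32 * R ≤ |X|)
    (hX2 : 1024 * T ≤ X ^ 2) (ψ : ℂ → ℂ) {r : ℝ} (hr : 0 ≤ r) (hr1 : r < 1) {κ : ℝ}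
    (hκ : κ ≤ |X| / 32) (hc : ‖imb 1 Complex.I ((r : ℂ) * pg W t X) - (flow W t X - W t)‖ ≤ κ) :
    ∃ z ∈ loewnerDomain W t, FD ψ W t ((r : ℂ) * pg W t X) = ψ z ∧ ‖z - X‖ ≤ 2 * κ ∧
      pos W t z = (r : ℂ) * pg W t X := by
  have hR := H.R_nonneg
  have hT : 0 ≤ T := H.nn.trans H.le
  have hn : ‖pg W t X‖ = 1 := pg_norm H hX0 (by linarith) (by linarith)
  set w : ℂ := (r : ℂ) * pg W t X with hw
  have hwn : ‖w‖ < 1 := by
    rw [hw, norm_mul, hn, mul_one, Complex.norm_real, Real.norm_of_nonneg hr]; exact hr1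
  have hi : 0 < (imb 1 Complex.I w).im :=
    Vale.Agent.P153.R2.R1.imb_im_pos norm_one (by simp) hwn
  obtain ⟨m1, m2⟩ := mapsTo_inv H (ζ := imb 1 Complex.I w) hi
  set z : ℂ := inv (HH \ loewnerDomain W t) (fun z => gf W z t) (imb 1 Complex.I w + W t) with hz
  refine ⟨z, m1, rfl, ?_, ?_⟩
  · have h1 := inv_near H hX0 hX hX2 m1 (by rw [m2]; exact hc.trans hκ)
    rw [m2] at h1
    linarith
  · have hw1 : w ∈ ball (0 : ℂ) 1 := mem_ball_zero_iff.2 hwn
    show mb 1 Complex.I (Zf W z t) = w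
    rw [m2]
    exact (mb_imb norm_one (by simp) (ball_ne_one hw1)).2

end Vale.Agent.P167.H756.G2
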