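import Vale.Agent.P167.H756.G2.Flow2

/-!
# P167, general `q`, Stage II: the barrier with the gate is outside of the closed polygon
-/

set_option autoImplicit false

open Set Topology Metric Filter Bornology
open scoped Real ComplexConjugate

namespace Vale.Agent.P167.H756.G2

open Vale.Agent.P153.R2.R1 (Conf dinv mb imb norm_mb_eq mb_imb imb_mb)
open Vale.Agent.P153.R2.L1 (HH mem_HH inv)
open Vale.Agent.P164 (loewnerDomain gf Zf)
open Vale.Agent.P167.H756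
open Vale.Agent.P167.SG
open Vale.Agent.P167.H947 (surv flow flow_gf flow_rsol surv_inter differentiableOn_flow)
open Vale.Agent.P167.H450.Out (OD Pm)

/-- A gate in a rotated and translated frame. -/
structure GateF (ψ : ℂ → ℂ) (xg h c : ℝ) (Gt : Set ℂ) (x₁ : ℂ) : Prop where
  hc : 0 < c
  conn : IsPreconnected Gt
  mem : ψ xg ∈ Gt
  near : ∀ z ∈ HH, ∀ x ∈ Gt, dist x (ψ z) ≤ c → ‖z - xg‖ ≤ h
  mem₁ : x₁ ∈ Gt
  out : ∀ z ∈ HH, (ψ z).re + c ≤ x₁.re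

theorem Gate.frame {ψ : ℂ → ℂ} {xg h c : ℝ} {Gt : Set ℂ} (H : Gate ψ xg h c Gt) {al : ℂ}
    (hal : ‖al‖ = 1) (β : ℂ) :
    ∃ x₁ : ℂ, GateF (fun z => al * ψ z + β) xg h c ((fun z => al * z + β) '' Gt) x₁ := by
  obtain ⟨R₁, h1, h2⟩ := H.out
  have hal0 : al ≠ 0 := norm_pos_iff.1 (by rw [hal]; exact one_pos)
  have hR : 0 ≤ R₁ := by
    have := h1 Complex.I (by simp [mem_HH])
    have h3 := norm_nonneg (ψ Complex.I)
    linarith [H.hc]
  refine ⟨R₁ + β, H.hc, H.conn.image _ (by fun_prop), mem_image_of_mem _ H.mem, ?_, ?_, ?_⟩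
  · rintro z hz _ ⟨x, hx, rfl⟩ hd
    refine H.near z hz x hx ?_
    have e : al * x + β - (al * ψ z + β) = al * (x - ψ z) := by ring
    simp only at hd
    rw [dist_eq_norm, e, norm_mul, hal, one_mul, ← dist_eq_norm] at hd
    exact hd
  · refine ⟨al⁻¹ * R₁, h2 ?_, ?_⟩
    · rw [mem_sphere_zero_iff_norm, norm_mul, norm_inv, hal, inv_one, one_mul, Complex.norm_real,
        Real.norm_of_nonneg hR]
    · simp only
      rw [mul_inv_cancel_left₀ hal0]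
  · intro z hz
    have h3 := h1 z hz
    have h4 := Complex.re_le_norm (al * ψ z)
    rw [norm_mul, hal, one_mul] at h4
    simp only [Complex.add_re, Complex.ofReal_re]
    linarith

/-- Positions near the pushed-in arc are far from the domain with the collar removed. -/
theorem far_rr {σ ε ε' ε₁ η d : ℝ} {w w' : ℂ} (hσ : |σ| = 1) (hε' : 0 ≤ ε')
    (h1 : d ≤ ε - ε₁) (h2 : d ≤ ε' * (1 - ε) - η) (hη : 0 ≤ η) (hw1 : 1 - ε₁ ≤ ‖w‖)
    (hwn : ‖w‖ ≤ 1) (hw2 : σ * w.im ≤ η * ‖w‖) (hw' : w' ∈ Rr σ ε ε' 1) : d ≤ dist w w' := by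
  by_cases hn : ‖w'‖ < 1 - ε
  · have := norm_sub_norm_le w w'
    rw [← dist_eq_norm] at this
    linarith
  push Not at hn
  rcases hw'.2 with h | h | h
  · linarith
  · have h4 : |w.im - w'.im| ≤ dist w w' := by
      rw [dist_eq_norm, ← Complex.sub_im]; exact Complex.abs_im_le_norm _
    have h5 : σ * (w'.im - w.im) ≤ |w.im - w'.im| := by
      have := le_abs_self (σ * (w'.im - w.im))
      rw [abs_mul, hσ, one_mul, abs_sub_comm] at this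
      exact this
    have h6 : ε' * (1 - ε) ≤ ε' * ‖w'‖ := mul_le_mul_of_nonneg_left hn hε'
    have h7 : η * ‖w‖ ≤ η := by nlinarith
    have h8 : σ * (w'.im - w.im) = σ * w'.im - σ * w.im := by ring
    linarith
  · have := Complex.re_le_norm w'
    linarith

/-- The radial segment at the gate. -/
noncomputable def Gw (W : ℝ → ℝ) (t X ρ : ℝ) : Set ℂ :=
  (fun r : ℝ => (r : ℂ) * pg W t X) '' Ico ρ 1

theorem not_nr2_of_norm {σ ν : ℝ} {w : ℂ} (h : ‖w‖ < 1 - 2 * ν) : ¬ Nr2 σ ν w := by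
  rintro ⟨ω, o1, -, o3⟩
  have := norm_sub_norm_le ω w
  rw [← dist_eq_norm, dist_comm, o1] at this
  linarith

theorem not_nr2_of_im {σ ν η : ℝ} {w : ℂ} (hσ : |σ| = 1) (hη : 0 ≤ η)
    (h2 : 2 * ν < η * (1 - 2 * ν)) (hw : σ * w.im = η * ‖w‖) : ¬ Nr2 σ ν w := by
  rintro ⟨ω, o1, o2, o3⟩
  have hn : 1 - 2 * ν ≤ ‖w‖ := by
    have := norm_sub_norm_le ω w
    rw [← dist_eq_norm, dist_comm, o1] at this
    linarith
  have h4 : |w.im - ω.im| ≤ dist w ω := by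
    rw [dist_eq_norm, ← Complex.sub_im]; exact Complex.abs_im_le_norm _
  have h5 : σ * (w.im - ω.im) ≤ |w.im - ω.im| := by
    have := le_abs_self (σ * (w.im - ω.im))
    rwa [abs_mul, hσ, one_mul] at this
  have h6 : η * (1 - 2 * ν) ≤ η * ‖w‖ := mul_le_mul_of_nonneg_left hn hη
  have h7 : σ * (w.im - ω.im) = σ * w.im - σ * ω.im := by ring
  linarith

section

variable {T R τ κ ε η e ν r₀ ℓ X hg c η₁ κi σ t : ℝ} {W : ℝ → ℝ} {ψ : ℂ → ℂ} {ι : Type*}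
  {K : ι → Set ℂ} {Gt : Set ℂ} {x₁ : ℂ} {Y : Set ℂ}

/-- The data of the gate. -/
structure GD (T R τ κ ε η e ν r₀ ℓ X hg c η₁ κi σ t : ℝ) (W : ℝ → ℝ) (ψ : ℂ → ℂ) {ι : Type*}
    (K : ι → Set ℂ) (Gt : Set ℂ) (x₁ : ℂ) : Prop where
  drv : Drv T R W t
  cst : Cst2 τ κ ε η e ν
  hσ : σ = 1 ∨ σ = -1
  hX1 : 1 ≤ X
  hX : 32 * R ≤ X
  hX2 : 1024 * T ≤ X ^ 2
  diff : DifferentiableOn ℂ ψ HH
  inj : InjOn ψ HH
  cont : ContinuousOn ψ {z | 0 ≤ z.im}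
  gate : GateF ψ (σ * X) hg c Gt x₁
  hg0 : 0 < hg
  hg1 : 4 * hg < ε
  hg2 : 4 * hg < τ / 2 * (1 - ε)
  hg3 : hg < X / 8
  eqc : ∀ z : ℂ, 0 ≤ z.im → ‖z - ((σ * X : ℝ) : ℂ)‖ ≤ η₁ → ‖ψ z - ψ ((σ * X : ℝ) : ℂ)‖ ≤ c / 2
  hκi : 2 * κi ≤ η₁
  hκi2 : κi ≤ X / 32
  imbc : ∀ x : ℝ, |x| ≤ 2 * X → ∀ v : ℂ, ‖v - mb 1 Complex.I x‖ ≤ 3 * ν →
    ‖imb 1 Complex.I v - x‖ ≤ κi
  hr₀ : 40 * ℓ ≤ r₀
  hℓc : 8 * ℓ ≤ c
  sit : Sit (FD ψ W t) σ ε (τ / 2) 1 e ν (2 * r₀) ℓ K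
  nc : ∀ u ∈ Ug (FD ψ W t) σ ε (τ / 2) 1 K, ∀ y ∈ ψ '' loewnerDomain W t, dist u y ≤ 12 * ℓ →
    ¬ Nr2 σ ν (dinv (FD ψ W t) y) → Jd (ψ '' loewnerDomain W t) r₀ u y

namespace GD

variable (G : GD T R τ κ ε η e ν r₀ ℓ X hg c η₁ κi σ t W ψ K Gt x₁)
include G

theorem absX : |σ * X| = X := by
  have := G.hX1
  rcases G.hσ with h | h <;> rw [h]
  · rw [one_mul, abs_of_pos (by linarith)]
  · rw [neg_one_mul, abs_neg, abs_of_pos (by linarith)]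

theorem sqX : (σ * X) ^ 2 = X ^ 2 := by rcases G.hσ with h | h <;> rw [h] <;> ring

theorem X0 : σ * X ≠ 0 := by
  have := G.hX1
  rw [← abs_pos, G.absX]; linarith

theorem pgn : ‖pg W t (σ * X)‖ = 1 :=
  pg_norm G.drv G.X0 (by rw [G.absX]; linarith [G.hX, G.drv.R_nonneg])
    (by rw [G.sqX]; linarith [G.hX2, G.drv.nn.trans G.drv.le])

theorem pgi : σ * (pg W t (σ * X)).im < 0 := by
  have h := pg_im G.drv G.hσ G.hX1 (by linarith [G.hX, G.drv.R_nonneg])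
    (by linarith [G.hX2, G.drv.nn.trans G.drv.le])
  have : 0 < 1 / (4 * X ^ 2 + 1) := by positivity
  linarith

theorem himg : FD ψ W t '' ball 0 1 = ψ '' loewnerDomain W t := FD_img G.drv ψ

theorem dinvψ {z : ℂ} (hz : z ∈ loewnerDomain W t) : dinv (FD ψ W t) (ψ z) = pos W t z :=
  dinv_FD G.drv G.diff G.inj hz

/-- Points of `U` are not near the gate point. -/
theorem not_near {z : ℂ} (hz : z ∈ loewnerDomain W t)
    (hu : ψ z ∈ Ug (FD ψ W t) σ ε (τ / 2) 1 K) : ¬ ‖z - ((σ * X : ℝ) : ℂ)‖ ≤ hg := by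
  intro h
  have hzH : z ∈ HH := Vale.Agent.P164.im_pos_of_dom G.drv.nn hz
  have h1 := (zf_near G.drv G.X0 (by rw [G.absX]; exact G.hX) (by rw [G.sqX]; exact G.hX2) hzH
    (z := z) (by rw [G.absX]; exact lt_of_le_of_lt h G.hg3)).2
  obtain ⟨X₁, h2, -⟩ := real_pt2 G.drv G.X0 (by rw [G.absX]; linarith [G.hX, G.drv.R_nonneg])
    (by rw [G.sqX]; linarith [G.hX2, G.drv.nn.trans G.drv.le])
  have h3 : dist (pg W t (σ * X)) (pos W t z) ≤ 4 * hg := by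
    rw [pg, pos, dist_comm]
    refine (dist_mb_mb (Vale.Agent.P164.Zf_im_pos G.drv.nn hz).le (by rw [h2]; simp)).trans ?_
    linarith
  have h4 : pos W t z ∈ Rr σ ε (τ / 2) 1 := by
    have h5 := (gd_sub (G.sit.pos_gd hu)).1
    rwa [G.dinvψ hz] at h5
  have hC := G.cst
  have h5 := far_rr (σ := σ) (ε := ε) (ε' := τ / 2) (ε₁ := 0) (η := 0)
    (d := min ε (τ / 2 * (1 - ε))) (w := pg W t (σ * X)) (w' := pos W t z) G.sit.hσ
    (by linarith [hC.hτ]) (by rw [sub_zero]; exact min_le_left _ _)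
    (by rw [sub_zero]; exact min_le_right _ _) le_rfl (by rw [G.pgn]; linarith) G.pgn.le
    (by rw [zero_mul]; exact G.pgi.le) h4
  have h6 : 4 * hg < min ε (τ / 2 * (1 - ε)) := lt_min G.hg1 G.hg2
  linarith

theorem gw_ball {ρ : ℝ} (hρ : 0 ≤ ρ) : Gw W t (σ * X) ρ ⊆ ball 0 1 := by
  rintro _ ⟨r, ⟨h1, h2⟩, rfl⟩
  rw [mem_ball_zero_iff, norm_mul, G.pgn, mul_one, Complex.norm_real,
    Real.norm_of_nonneg (hρ.trans h1)]
  exact h2

omit G in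
theorem gw_conn {ρ : ℝ} : IsPreconnected (Gw W t (σ * X) ρ) :=
  isPreconnected_Ico.image _ (by fun_prop)

/-- Points of the radial segment near the circle are near the gate point. -/
theorem gw_near {r : ℝ} (h0 : 0 ≤ r) (h1 : 1 - 3 * ν ≤ r) (h2 : r < 1) :
    ∃ z ∈ loewnerDomain W t, FD ψ W t ((r : ℂ) * pg W t (σ * X)) = ψ z ∧
      ‖z - ((σ * X : ℝ) : ℂ)‖ ≤ η₁ := by
  obtain ⟨X₁, h3, -, h4, -⟩ := real_pt2 G.drv G.X0
    (by rw [G.absX]; linarith [G.hX, G.drv.R_nonneg])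
    (by rw [G.sqX]; linarith [G.hX2, G.drv.nn.trans G.drv.le])
  rw [G.absX] at h4
  have h5 : ‖(r : ℂ) * pg W t (σ * X) - mb 1 Complex.I X₁‖ ≤ 3 * ν := by
    have e : (r : ℂ) * pg W t (σ * X) - mb 1 Complex.I X₁ = ((r - 1 : ℝ) : ℂ) * pg W t (σ * X) := by
      rw [pg, h3]; push_cast; ring
    rw [e, norm_mul, G.pgn, mul_one, Complex.norm_real, Real.norm_eq_abs, abs_le]
    constructor <;> linarith
  have h6 := G.imbc X₁ h4 _ h5
  rw [← h3] at h6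
  obtain ⟨z, g1, g2, g3, -⟩ := radial G.drv G.X0 (by rw [G.absX]; exact G.hX)
    (by rw [G.sqX]; exact G.hX2) ψ h0 h2 (κ := κi) (by rw [G.absX]; exact G.hκi2) h6
  exact ⟨z, g1, g2, g3.trans G.hκi⟩

/-- The gate point is a limit of the radial segment. -/
theorem gw_closure {ρ : ℝ} (hρ1 : ρ < 1) :
    ψ ((σ * X : ℝ) : ℂ) ∈ closure (FD ψ W t '' Gw W t (σ * X) ρ) := by
  obtain ⟨X₁, h3, -, h4, -⟩ := real_pt2 G.drv G.X0
    (by rw [G.absX]; linarith [G.hX, G.drv.R_nonneg])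
    (by rw [G.sqX]; linarith [G.hX2, G.drv.nn.trans G.drv.le])
  rw [G.absX] at h4
  have hX1 := G.hX1
  rw [Metric.mem_closure_iff]
  intro δ hδ
  have hc := G.cont ((σ * X : ℝ) : ℂ) (by simp)
  rw [Metric.continuousWithinAt_iff] at hc
  obtain ⟨δ', hδ', hc⟩ := hc δ hδ
  obtain ⟨ε₂, hε₂, him⟩ := imb_close (M := 2 * X) (κ := min (δ' / 4) (X / 32)) (by positivity)
    (by positivity)
  set r : ℝ := max ρ (1 - ε₂) ⊔ (1 / 2) with hr
  have hr1 : r < 1 := max_lt (max_lt hρ1 (by linarith)) (by norm_num)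
  have hr0 : 0 ≤ r := le_trans (by norm_num) (le_max_right _ _)
  have hrρ : ρ ≤ r := (le_max_left _ _).trans (le_max_left _ _)
  have hrε : 1 - ε₂ ≤ r := (le_max_right _ _).trans (le_max_left _ _)
  have h5 : ‖(r : ℂ) * pg W t (σ * X) - mb 1 Complex.I X₁‖ ≤ ε₂ := by
    have e : (r : ℂ) * pg W t (σ * X) - mb 1 Complex.I X₁ = ((r - 1 : ℝ) : ℂ) * pg W t (σ * X) := by
      rw [pg, h3]; push_cast; ring
    rw [e, norm_mul, G.pgn, mul_one, Complex.norm_real, Real.norm_eq_abs, abs_le]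
    constructor <;> linarith
  have h6 := him X₁ _ (by simp) (by rw [abs_norm]; exact h4) h5
  rw [← h3] at h6
  obtain ⟨z, g1, g2, g3, -⟩ := radial G.drv G.X0 (by rw [G.absX]; exact G.hX)
    (by rw [G.sqX]; exact G.hX2) ψ hr0 hr1 (κ := min (δ' / 4) (X / 32))
    (by rw [G.absX]; exact min_le_right _ _) h6
  refine ⟨_, ⟨_, ⟨r, ⟨hrρ, hr1⟩, rfl⟩, rfl⟩, ?_⟩
  rw [g2, dist_comm]
  refine hc (Vale.Agent.P164.im_pos_of_dom G.drv.nn g1).le ?_
  rw [dist_eq_norm]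
  have := min_le_left (δ' / 4) (X / 32)
  linarith

/-- **The barrier with the gate is outside of the closed polygon.** -/
theorem barrier (hYc : IsPreconnected Y) (hY : ∀ w ∈ Y, ‖w‖ < 1 ∧ 1 - ε / 2 ≤ ‖w‖ ∧
    σ * w.im ≤ η * ‖w‖ ∧ (‖w‖ = 1 - ε / 2 ∨ σ * w.im = η * ‖w‖))
    (hYg : ((1 - ε / 2 : ℝ) : ℂ) * pg W t (σ * X) ∈ Y) :
    Disjoint (FD ψ W t '' Y ∪ (FD ψ W t '' Gw W t (σ * X) (1 - ε / 2) ∪ Gt))
      (closure (Pm ℓ (Ug (FD ψ W t) σ ε (τ / 2) 1 K))) := by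
  have hC := G.cst
  have hε0 := hC.hε
  have hε1 := hC.hε1
  have hν := hC.hν
  have hρ0 : 0 ≤ 1 - ε / 2 := by linarith
  have hρ1 : 1 - ε / 2 < 1 := by linarith
  have hℓ := G.sit.od.hℓ
  have hYb : Y ⊆ ball 0 1 := fun w hw => mem_ball_zero_iff.2 (hY w hw).1
  have hcontF : ContinuousOn (FD ψ W t) (ball 0 1) := G.sit.conf.diff.continuousOn
  have hUd : ∀ u ∈ Ug (FD ψ W t) σ ε (τ / 2) 1 K, ∃ z ∈ loewnerDomain W t, ψ z = u := by
    intro u hu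
    have h1 : u ∈ FD ψ W t '' ball 0 1 := G.sit.sub hu
    rw [G.himg] at h1
    exact h1
  have hfar : ∀ w w' : ℂ, 1 - ε / 2 ≤ ‖w‖ → ‖w‖ ≤ 1 → σ * w.im ≤ η * ‖w‖ →
      w' ∈ Rr σ ε (τ / 2) 1 → ν < dist w w' := by
    intro w w' a1 a2 a3 a4
    have h1 := far_rr (σ := σ) (ε := ε) (ε' := τ / 2) (ε₁ := ε / 2) (η := η)
      (d := min (ε - ε / 2) (τ / 2 * (1 - ε) - η)) (w := w) (w' := w') G.sit.hσ
      (by linarith [hC.hτ]) (min_le_left _ _) (min_le_right _ _) hC.hη.le a1 a2 a3 a4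
    exact lt_of_lt_of_le (lt_min hC.f1 hC.f2) h1
  -- near points of the domain with safe positions
  have hjd : ∀ y ∈ FD ψ W t '' ball 0 1, ∀ u ∈ Ug (FD ψ W t) σ ε (τ / 2) 1 K, dist y u ≤ 4 * ℓ →
      ¬ Nr2 σ ν (dinv (FD ψ W t) y) → Jd (FD ψ W t '' ball 0 1) (2 * r₀) y u := by
    intro y hy u hu hd hn
    have h1 := G.nc u hu y (by rw [← G.himg]; exact hy) (by rw [dist_comm]; linarith) hn
    rw [G.himg]
    exact jd_symm h1 (d := 4 * ℓ) (by rw [dist_comm]; exact hd) (by linarith [G.hr₀])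
  have hgw : ∀ w ∈ Gw W t (σ * X) (1 - ε / 2), 1 - ε / 2 ≤ ‖w‖ ∧ ‖w‖ ≤ 1 ∧
      σ * w.im ≤ η * ‖w‖ := by
    rintro _ ⟨r, ⟨a1, a2⟩, rfl⟩
    have hr : 0 ≤ r := hρ0.trans a1
    rw [norm_mul, G.pgn, mul_one, Complex.norm_real, Real.norm_of_nonneg hr]
    refine ⟨a1, a2.le, ?_⟩
    have h1 : σ * ((r : ℂ) * pg W t (σ * X)).im = r * (σ * (pg W t (σ * X)).im) := by
      rw [Complex.im_ofReal_mul]; ring
    rw [h1]
    have h2 := G.pgi
    have h3 : r * (σ * (pg W t (σ * X)).im) ≤ 0 := mul_nonpos_of_nonneg_of_nonpos hr h2.le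
    have h4 : 0 ≤ η * r := mul_nonneg hC.hη.le hr
    linarith
  -- the union is connected
  have hX : IsPreconnected (FD ψ W t '' Y ∪ (FD ψ W t '' Gw W t (σ * X) (1 - ε / 2) ∪ Gt)) := by
    have c1 : IsPreconnected (FD ψ W t '' Y) := hYc.image _ (hcontF.mono hYb)
    have c2 : IsPreconnected (FD ψ W t '' Gw W t (σ * X) (1 - ε / 2)) :=
      gw_conn.image _ (hcontF.mono (G.gw_ball hρ0))
    have c3 : IsPreconnected (insert (ψ ((σ * X : ℝ) : ℂ))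
        (FD ψ W t '' Gw W t (σ * X) (1 - ε / 2))) := by
      refine c2.subset_closure (subset_insert _ _) ?_
      rintro x (rfl | hx)
      · exact G.gw_closure hρ1
      · exact subset_closure hx
    have c4 : IsPreconnected (insert (ψ ((σ * X : ℝ) : ℂ))
        (FD ψ W t '' Gw W t (σ * X) (1 - ε / 2)) ∪ Gt) :=
      IsPreconnected.union (ψ ((σ * X : ℝ) : ℂ)) (Or.inl rfl) G.gate.mem c3 G.gate.conn
    have e : insert (ψ ((σ * X : ℝ) : ℂ)) (FD ψ W t '' Gw W t (σ * X) (1 - ε / 2)) ∪ Gt =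
        FD ψ W t '' Gw W t (σ * X) (1 - ε / 2) ∪ Gt := by
      rw [insert_union]
      exact insert_eq_of_mem (Or.inr G.gate.mem)
    rw [e] at c4
    exact IsPreconnected.union (FD ψ W t (((1 - ε / 2 : ℝ) : ℂ) * pg W t (σ * X)))
      (mem_image_of_mem _ hYg)
      (Or.inl (mem_image_of_mem _ ⟨1 - ε / 2, ⟨le_rfl, hρ1⟩, rfl⟩)) c1 c4
  refine G.sit.barrier (X := FD ψ W t '' Gw W t (σ * X) (1 - ε / 2) ∪ Gt) hYb hX ?_ ?_ ?_
    (x₁ := x₁) (Or.inr G.gate.mem₁) ?_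
  · intro w hw w' hw'
    obtain ⟨a1, a2, a3, -⟩ := hY w hw
    exact hfar w w' a2 a1.le a3 hw'
  · rintro _ ⟨w, hw, rfl⟩ u hu hd
    obtain ⟨a1, a2, a3, a4⟩ := hY w hw
    refine hjd _ (mem_image_of_mem _ (hYb hw)) u hu hd ?_
    rw [G.sit.conf.dinv_apply (hYb hw)]
    rcases a4 with h | h
    · exact not_nr2_of_norm (by rw [h]; linarith [hC.s1])
    · exact not_nr2_of_im G.sit.hσ hC.hη.le hC.s3 h
  · rintro x (⟨_, ⟨r, ⟨a1, a2⟩, rfl⟩, rfl⟩ | hx) u hu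
    · by_contra hcon
      push Not at hcon
      have hr : 0 ≤ r := hρ0.trans a1
      obtain ⟨b1, b2, b3⟩ := hgw _ ⟨r, ⟨a1, a2⟩, rfl⟩
      have hwb : (r : ℂ) * pg W t (σ * X) ∈ ball (0 : ℂ) 1 := G.gw_ball hρ0 ⟨r, ⟨a1, a2⟩, rfl⟩
      by_cases h3 : 1 - 3 * ν ≤ r
      · obtain ⟨z, g1, g2, g3⟩ := G.gw_near hr h3 a2
        obtain ⟨zu, hzu, rfl⟩ := hUd u hu
        have h4 := G.eqc z (Vale.Agent.P164.im_pos_of_dom G.drv.nn g1).le g3
        apply G.not_near hzu hu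
        refine G.gate.near zu (Vale.Agent.P164.im_pos_of_dom G.drv.nn hzu) _ G.gate.mem ?_
        rw [g2] at hcon
        rw [← dist_eq_norm, dist_comm] at h4
        have h5 := dist_triangle (ψ ((σ * X : ℝ) : ℂ)) (ψ z) (ψ zu)
        linarith [G.hℓc]
      · push Not at h3
        have hj := hjd _ (mem_image_of_mem _ hwb) u hu hcon (by
          rw [G.sit.conf.dinv_apply hwb]
          apply not_nr2_of_norm
          rw [norm_mul, G.pgn, mul_one, Complex.norm_real, Real.norm_of_nonneg hr]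
          linarith)
        refine G.sit.not_far (mem_image_of_mem _ hwb) hu hj fun w' hw' => ?_
        rw [G.sit.conf.dinv_apply hwb]
        exact hfar _ w' b1 b2 b3 hw'
    · by_contra hcon
      push Not at hcon
      obtain ⟨zu, hzu, rfl⟩ := hUd u hu
      apply G.not_near hzu hu
      exact G.gate.near zu (Vale.Agent.P164.im_pos_of_dom G.drv.nn hzu) x hx
        (by linarith [G.hℓc])
  · intro u hu
    obtain ⟨zu, hzu, rfl⟩ := hUd u hu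
    have := G.gate.out zu (Vale.Agent.P164.im_pos_of_dom G.drv.nn hzu)
    linarith [G.hℓc]

end GD

end

end Vale.Agent.P167.H756.G2
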