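import Vale.Agent.P167.H756.G2.Defs

/-!
# P167, general `q`, Stage II: the situation without flat part

`exists_cst2`: the constants; `sit_of2`: `Sit` with `xc = 1`, near points of `U` and of the domain are
joined, points which see `IN` or the tip are near the closed pushed-in arc, points of `U` are not.
-/

set_option autoImplicit false

open Set Topology Metric Filter Bornology
open scoped Real ComplexConjugate

namespace Vale.Agent.P167.H756.G2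

open Vale.Agent.P153.R2.R1 (Conf dinv mb)
open Vale.Agent.P153.R2.L1 (HH)
open Vale.Agent.P164 (loewnerDomain gf Zf)
open Vale.Agent.P167.H756 (Cls FD FD_mb FD_img HConf Drv cls_FD)
open Vale.Agent.P167.H450.Out (OD Pm)
open Vale.Agent.P167.SG

/-- The constants: first the collar `ε` and the barrier `η`, then, for every `ν₀ > 0`, `e` and
`ν ≤ ν₀`. -/
theorem exists_cst2 {τ κ : ℝ} (hτ : 0 < τ) (hτ1 : τ ≤ 1) (hκ : 0 < κ) :
    ∃ ε η : ℝ, 0 < ε ∧ 0 < η ∧ ε ≤ κ / 2 ∧ η ≤ τ / 8 ∧ ∀ ν₀ : ℝ, 0 < ν₀ → ∀ e₀ : ℝ, 0 < e₀ →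
      ∃ e ν : ℝ, e ≤ e₀ ∧ ν ≤ ν₀ ∧ Cst2 τ κ ε η e ν := by
  set ε : ℝ := min (1 / 4) (κ / 2) with hε
  have e1 : ε ≤ 1 / 4 := min_le_left _ _
  have e2 : ε ≤ κ / 2 := min_le_right _ _
  have e0 : 0 < ε := by positivity
  set η : ℝ := τ / 8 with hη
  have n0 : 0 < η := by positivity
  refine ⟨ε, η, e0, n0, e2, le_rfl, fun ν₀ hν₀ e' he' => ?_⟩
  set e : ℝ := min e' (min (τ / 16) (κ / 32)) with he
  have a0' : e ≤ e' := min_le_left _ _
  have a1 : e ≤ τ / 16 := (min_le_right _ _).trans (min_le_left _ _)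
  have a2 : e ≤ κ / 32 := (min_le_right _ _).trans (min_le_right _ _)
  have a0 : 0 < e := by positivity
  set ν : ℝ := min ν₀ (min (ε / 8) (min (η / 4) (κ / 8))) with hν
  have b1' : ν ≤ ν₀ := min_le_left _ _
  have b1 : ν ≤ ε / 8 := (min_le_right _ _).trans (min_le_left _ _)
  have b2 : ν ≤ η / 4 := (min_le_right _ _).trans ((min_le_right _ _).trans (min_le_left _ _))
  have b3 : ν ≤ κ / 8 := (min_le_right _ _).trans ((min_le_right _ _).trans (min_le_right _ _))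
  have b0 : 0 < ν := by positivity
  have c4 : τ * ε ≤ τ * (1 / 4) := mul_le_mul_of_nonneg_left e1 hτ.le
  have c5 : τ * ν ≤ τ * (1 / 32) := mul_le_mul_of_nonneg_left (by linarith) hτ.le
  have c6 : η * ν ≤ η * (1 / 32) := mul_le_mul_of_nonneg_left (by linarith) n0.le
  have k2 : τ / 2 * (1 - ε) = τ / 2 - τ * ε / 2 := by ring
  have k4 : τ / 2 * (1 - 2 * ν) = τ / 2 - τ * ν := by ring
  have k5 : η * (1 - 2 * ν) = η - 2 * (η * ν) := by ring
  have l2 : ν < τ / 2 * (1 - ε) - η := by rw [k2]; linarith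
  have l4 : 2 * ν < τ / 2 * (1 - 2 * ν) := by rw [k4]; linarith
  have l5 : 2 * ν < η * (1 - 2 * ν) := by rw [k5]; linarith
  exact ⟨e, ν, a0', b1', ⟨hτ, hτ1, e0, e1, n0, by linarith, a0, by linarith, b0, by linarith, l2,
    by linarith, by linarith, by linarith, l4, l5⟩⟩

/-- A position near the pushed-in arc is not in the domain with the collar removed. -/
theorem not_nr2 {σ εa ηa ν : ℝ} {w : ℂ} (hσ : |σ| = 1) (h1 : 2 * ν ≤ εa) (hη : 0 ≤ ηa)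
    (h2 : 2 * ν < ηa * (1 - 2 * ν)) (hw : w ∈ Rr σ εa ηa 1) : ¬ Nr2 σ ν w := by
  rintro ⟨ω, o1, o2, o3⟩
  have hn : 1 - 2 * ν ≤ ‖w‖ := by
    have := norm_sub_norm_le ω w
    rw [← dist_eq_norm, dist_comm, o1] at this
    linarith
  rcases hw.2 with h | h | h
  · linarith
  · have h4 : |w.im - ω.im| ≤ dist w ω := by
      rw [dist_eq_norm, ← Complex.sub_im]; exact Complex.abs_im_le_norm _
    have h5 : σ * (w.im - ω.im) ≤ |w.im - ω.im| := by
      have := le_abs_self (σ * (w.im - ω.im))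
      rwa [abs_mul, hσ, one_mul] at this
    have h6 : ηa * (1 - 2 * ν) ≤ ηa * ‖w‖ := mul_le_mul_of_nonneg_left hn hη
    have h7 : σ * (w.im - ω.im) = σ * w.im - σ * ω.im := by ring
    linarith
  · have := Complex.re_le_norm w
    linarith

section

variable {T R Rd cd Y τ κ ε η e ν : ℝ}

/-- **The situation.** -/
theorem sit_of2 (hRd : 0 < Rd) (hcd : 0 < cd) (hY0 : 0 < Y) (hY : 8 * R ≤ Y)
    (hY2 : 64 * T ≤ Y ^ 2) (C : Cst2 τ κ ε η e ν) :
    ∃ r₁ > 0, ∀ {ι : Type} [Finite ι] {ψ : ℂ → ℂ} {W : ℝ → ℝ} {t σ r₀ ρ r' ℓ s₂ : ℝ}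
      {IN : Set ℂ} {tp : ℂ} {K : ι → Set ℂ}, HConf Rd cd Y ψ → Drv T R W t →
      Hst2 σ ν r₀ ρ r' ℓ s₂ ψ W t tp IN K → 0 < ℓ →
      r₀ ≤ r₁ → ρ ≤ r₁ → r' ≤ r₁ → s₂ ≤ r₁ → 40 * ℓ ≤ r₀ →
      Sit (FD ψ W t) σ ε (τ / 2) 1 e ν (2 * r₀) ℓ (fun i => dinv (FD ψ W t) '' K i) ∧
      (∀ u ∈ Ug (FD ψ W t) σ ε (τ / 2) 1 (fun i => dinv (FD ψ W t) '' K i),
        ∀ y ∈ ψ '' loewnerDomain W t, dist u y ≤ 12 * ℓ → ¬ Nr2 σ ν (dinv (FD ψ W t) y) →
          Jd (ψ '' loewnerDomain W t) r₀ u y) ∧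
      (∀ u z : ℂ, Jd (ψ '' loewnerDomain W t) ρ u z → z ∈ IN → Nr2 σ ν (dinv (FD ψ W t) u)) ∧
      (∀ u : ℂ, TipJ (ψ '' loewnerDomain W t) r' tp u → Nr2 σ ν (dinv (FD ψ W t) u)) := by
  obtain ⟨c, hc, hcls⟩ := cls_FD (T := T) (R := R) hRd hcd hY0 hY hY2
  obtain ⟨η₁, hη₁, hs1⟩ := Cls.small_img (R := Rd) (c := c) hRd hc C.he
  obtain ⟨η₂, hη₂, hs2⟩ := Cls.small_img (R := Rd) (c := c) hRd hc C.hν
  obtain ⟨η₃, hη₃, hs3⟩ := Cls.inside (R := Rd) (c := c) hRd hc (ρ := 1 - ν) (by linarith [C.hν])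
  refine ⟨min η₁ (min (η₂ / 4) η₃), by positivity, ?_⟩
  intro ι _ ψ W t σ r₀ ρ r' ℓ s₂ IN tp K hψ Hd HH' hℓ hr₀ hρ hr' hs₂ h40
  have q1 : min η₁ (min (η₂ / 4) η₃) ≤ η₁ := min_le_left _ _
  have q2 : min η₁ (min (η₂ / 4) η₃) ≤ η₂ / 4 := (min_le_right _ _).trans (min_le_left _ _)
  have q3 : min η₁ (min (η₂ / 4) η₃) ≤ η₃ := (min_le_right _ _).trans (min_le_right _ _)
  set F : ℂ → ℂ := FD ψ W t with hF
  have hCls : Cls Rd c F := hcls ψ hψ W t Hd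
  have hconf : Conf F (F '' ball 0 1) := hCls.conf
  have hD : F '' ball 0 1 = ψ '' loewnerDomain W t := FD_img Hd ψ
  have hconf' : Conf F (ψ '' loewnerDomain W t) := by rw [← hD]; exact hconf
  have hdi : ∀ z ∈ loewnerDomain W t, dinv F (ψ z) = pos W t z := fun z hz =>
    dinv_FD Hd hψ.diff hψ.inj hz
  -- closeness of positions
  have hclose : ∀ C' ⊆ ψ '' loewnerDomain W t, IsPreconnected C' →
      (∀ x ∈ C', ∀ y ∈ C', dist x y ≤ η₂) → ∀ u ∈ C', ∀ v ∈ C',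
      dist (dinv F u) (dinv F v) ≤ ν := by
    intro C' hC' hpc hsm u hu v hv
    refine hs2 F hCls C' (by rw [hD]; exact hC') hpc hsm _ (hconf'.dinv_mem (hC' hu)) _
      (hconf'.dinv_mem (hC' hv)) ?_ ?_
    · rw [hconf'.apply_dinv (hC' hu)]; exact hu
    · rw [hconf'.apply_dinv (hC' hv)]; exact hv
  have hball : ∀ C' : Set ℂ, ∀ u : ℂ, ∀ s : ℝ, C' ⊆ ball u s → 2 * s ≤ η₂ →
      ∀ x ∈ C', ∀ y ∈ C', dist x y ≤ η₂ := by
    intro C' u s h1 h2 x hx y hy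
    have h3 := mem_ball.1 (h1 hx)
    have h4 := mem_ball.1 (h1 hy)
    have h5 := dist_triangle_right x y u
    linarith
  -- points which see the side
  have hsee : ∀ u z : ℂ, Jd (ψ '' loewnerDomain W t) ρ u z → z ∈ IN → Nr2 σ ν (dinv F u) := by
    rintro u z ⟨C', j1, j2, j3, j4, j5⟩ hz
    have h1 := hclose C' j2 j1 (hball C' u ρ j3 (by linarith)) u j4 z j5
    obtain ⟨w, hw, hwz⟩ := j2 j5
    obtain ⟨x, hx, hx2⟩ := HH'.side w hw (by rw [hwz]; exact hz)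
    obtain ⟨m1, m2⟩ := mb_real hx
    refine ⟨mb 1 Complex.I (x : ℂ), m1, m2, ?_⟩
    rw [← hdi w hw, hwz] at hx2
    exact (dist_triangle _ _ _).trans (by linarith)
  have htip : ∀ u : ℂ, TipJ (ψ '' loewnerDomain W t) r' tp u → Nr2 σ ν (dinv F u) := by
    rintro u ⟨C', j1, j2, j3, j4, j5⟩
    obtain ⟨w, hw, hwC, hw2⟩ := HH'.tip C' j2 j5 ν C.hν
    have h1 := hclose C' j2 j1 (hball C' u r' j3 (by linarith)) u j4 _ hwC
    rw [hdi w hw] at h1
    refine ⟨-1, by simp, by simp, ?_⟩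
    exact (dist_triangle _ _ _).trans (by linarith)
  -- the obstacles
  have hobs : Obs e (fun i => dinv F '' K i) := by
    refine ⟨C.he.le, ?_, ?_, ?_, ?_⟩
    · rintro i _ ⟨x, hx, rfl⟩
      exact hconf'.dinv_mem (HH'.ksub i hx)
    · intro i
      exact (HH'.kconn i).image _ fun x hx =>
        (hconf'.dinv_continuousAt (HH'.ksub i hx)).continuousWithinAt
    · rintro i _ ⟨x, hx, rfl⟩ _ ⟨y, hy, rfl⟩
      refine hs1 F hCls (K i) (by rw [hD]; exact HH'.ksub i) (HH'.kconn i) ?_ _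
        (hconf'.dinv_mem (HH'.ksub i hx)) _ (hconf'.dinv_mem (HH'.ksub i hy)) ?_ ?_
      · intro a ha b hb
        exact (HH'.ksmall i a ha b hb).trans (by linarith)
      · rw [hconf'.apply_dinv (HH'.ksub i hx)]; exact hx
      · rw [hconf'.apply_dinv (HH'.ksub i hy)]; exact hy
    · intro i
      obtain ⟨x, hx, hxD⟩ := HH'.kbd i
      exact closure_bd hconf' (HH'.ksub i) hx hxD
  set κ' : ι → Set ℂ := fun i => dinv F '' K i with hκ'
  have hε1 : ε < 1 := by linarith [C.hε1]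
  have hUsub : Ug F σ ε (τ / 2) 1 κ' ⊆ ψ '' loewnerDomain W t := by
    rw [← hD]
    exact image_mono fun w hw => rr_sub (gd_sub hw).1
  have hUgd : ∀ u ∈ Ug F σ ε (τ / 2) 1 κ', dinv F u ∈ Gd σ ε (τ / 2) 1 κ' := by
    rintro _ ⟨w, hw, rfl⟩
    rwa [hconf.dinv_apply (rr_sub (gd_sub hw).1)]
  have hUnr : ∀ u ∈ Ug F σ ε (τ / 2) 1 κ', ¬ Nr2 σ ν (dinv F u) := fun u hu =>
    not_nr2 HH'.hσ (by linarith [C.s1, C.hε]) (by linarith [C.hτ]) C.s2 (gd_sub (hUgd u hu)).1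
  -- (NC2)
  have hnc : ∀ u ∈ Ug F σ ε (τ / 2) 1 κ', ∀ y ∈ ψ '' loewnerDomain W t, dist u y ≤ 12 * ℓ →
      ¬ Nr2 σ ν (dinv F y) → Jd (ψ '' loewnerDomain W t) r₀ u y := by
    intro u hu y hy huy hy2
    have huD := hUsub hu
    have hug := hUgd u hu
    have h1 := hUnr u hu
    by_contra hcon
    obtain ⟨i, hi⟩ := HH'.nc u huD y hy huy hcon (fun ⟨z, hz, hj⟩ => h1 (hsee u z hj hz))
      (fun ⟨z, hz, hj⟩ => hy2 (hsee y z hj hz)) (fun h => h1 (htip u h)) (fun h => hy2 (htip y h))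
    have hN : dinv F u ∈ Nb κ' :=
      mem_iUnion.2 ⟨i, subset_closure (mem_image_of_mem (dinv F) hi)⟩
    exact (gd_sub hug).2 hN
  refine ⟨⟨hconf, hobs, C.he, C.he1, hε1, by linarith [C.hτ], HH'.hσ, C.hν.le, ?_, ?_, ?_, ?_⟩, hnc,
    hsee, htip⟩
  · refine ⟨hℓ, by linarith, ?_, hconf.isOpen, ?_, hconf.isOpen_image ?_ isOpen_gd, ?_, ?_, ?_, ?_⟩
    · apply (isBounded_ball (x := F 0) (r := Rd + 1)).subset
      rintro _ ⟨w, hw, rfl⟩
      rw [mem_ball, dist_eq_norm]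
      linarith [hCls.bdd w hw]
    · rw [hD]; exact HH'.pc
    · exact fun w hw => rr_sub (gd_sub hw).1
    · exact conn_gd.image _ (hconf.diff.continuousOn.mono fun w hw => rr_sub (gd_sub hw).1)
    · have h0 : (0 : ℂ) ∈ Gd σ ε (τ / 2) 1 κ' := zero_mem_gd hobs (by linarith [C.he1, C.he]) hε1
      exact ⟨F 0, mem_image_of_mem F h0⟩
    · exact image_mono fun w hw => rr_sub (gd_sub hw).1
    · intro u hu u' hu' huu
      obtain ⟨C', j1, j2, j3, j4, j5⟩ := hnc u hu u' (hUsub hu') huu (hUnr u' hu')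
      exact ⟨C', j1, by rw [hD]; exact j2, j3.trans (ball_subset_ball (by linarith)), j4, j5⟩
  · intro u _ C' hC' hpc hb hu v hv
    rw [hD] at hC'
    exact hclose C' hC' hpc (hball C' u _ hb (by linarith)) u hu v hv
  · intro C' hC' hpc hsm u hu v hv
    rw [hD] at hC'
    exact hclose C' hC' hpc (fun x hx y hy => (hsm x hx y hy).trans (by linarith)) u hu v hv
  · intro u hu x hx hxu
    by_contra hcon
    push Not at hcon
    have h1 := hs3 F hCls (dinv F u) (mem_closedBall_zero_iff.2 hcon.le)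
    rw [hconf.apply_dinv hu] at h1
    exact hx (h1 (mem_ball.2 (by linarith)))

/-- Points of `U` have safe positions relative to the pushed-in arc. -/
theorem not_nr2_U (C : Cst2 τ κ ε η e ν) {σ : ℝ} (hσ : |σ| = 1) {ι : Type*} {K : ι → Set ℂ}
    {F : ℂ → ℂ} (hconf : Conf F (F '' ball 0 1)) {u : ℂ} (hu : u ∈ Ug F σ ε (τ / 2) 1 K) :
    ¬ Nr2 σ ν (dinv F u) := by
  obtain ⟨w, hw, rfl⟩ := hu
  rw [hconf.dinv_apply (rr_sub (gd_sub hw).1)]
  exact not_nr2 hσ (by linarith [C.s1, C.hε]) (by linarith [C.hτ]) C.s2 (gd_sub hw).1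

end

end Vale.Agent.P167.H756.G2
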